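import Vale.Agent.P233Y.DefsA
import Vale.Agent.P233.H933.Str5
import Vale.Agent.P233.H992.Proper
import Vale.Agent.P233.H616.Model

/-!
# P233Z: the local settings

* `LQ M κ o ρ` : a length space with the `(1+3)`-point comparison in the ball `ball o ρ`.
* `LC M κ o ρ` : points of `ball o ρ` have intermediate points, and comparison holds in the ball.
-/

open Real Set Topology Metric

universe u

namespace Vale.Agent.P233Y

open Vale.Agent.P233 Vale.Agent.P233.AB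

theorem modelAngle_eq (κ a b c : ℝ) : modelAngle κ a b c = arccos (cvA κ a b c) := rfl

theorem modelAngle_eq_cang (κ a b c : ℝ) : modelAngle κ a b c = cang κ a b c := by
  rw [modelAngle_eq, cang_eq_arccos]

variable {M : Type u} [MetricSpace M]

theorem ang_eq (κ : ℝ) (p x y : M) : ang κ p x y = arccos (Str.cc κ p x y) := rfl

theorem ang_comm (κ : ℝ) (p x y : M) : ang κ p x y = ang κ p y x := by
  rw [ang_eq, ang_eq, Str.cc_comm]

/-- A length space with the `(1+3)`-point comparison in a small ball. -/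
structure LQ (M : Type u) [MetricSpace M] (κ : ℝ) (o : M) (ρ : ℝ) : Prop where
  pos : 0 < ρ
  sml : Sml κ (2 * ρ)
  len : H992.IsLen M
  sum : ∀ z ∈ ball o ρ, ∀ x₁ ∈ ball o ρ, ∀ x₂ ∈ ball o ρ, ∀ x₃ ∈ ball o ρ,
    z ≠ x₁ → z ≠ x₂ → z ≠ x₃ →
    arccos (Str.cc κ z x₁ x₂) + arccos (Str.cc κ z x₂ x₃) + arccos (Str.cc κ z x₁ x₃) ≤ 2 * π

/-- Intermediate points and triangle comparison in a small ball. -/
structure LC (M : Type u) [MetricSpace M] (κ : ℝ) (o : M) (ρ : ℝ) : Prop where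
  pos : 0 < ρ
  sml : Sml κ (2 * ρ)
  geo : ∀ x ∈ ball o ρ, ∀ y ∈ ball o ρ, ∀ s t : ℝ, 0 ≤ s → 0 ≤ t → s + t = dist x y →
    ∃ w, dist x w = s ∧ dist w y = t
  cmp : ∀ p ∈ ball o ρ, ∀ x ∈ ball o ρ, ∀ y ∈ ball o ρ, ∀ w ∈ ball o ρ,
    dist x w + dist w y = dist x y →
    T.Cmp κ (dist p x) (dist p y) (dist x w) (dist w y) (dist p w)

theorem Sml.mono' {κ R R' : ℝ} (h : Sml κ R) (hR : R' ≤ R) : Sml κ R' := fun hκ =>
  (mul_le_mul_of_nonneg_left hR (Real.sqrt_nonneg _)).trans (h hκ)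

theorem exists_sml (κ : ℝ) : ∃ r > 0, Sml κ r := by
  rcases lt_or_ge 0 κ with hκ | hκ
  · have h0 : 0 < √κ := Real.sqrt_pos.2 hκ
    refine ⟨π / (16 * √κ), by positivity, fun _ => ?_⟩
    field_simp
    norm_num
  · exact ⟨1, one_pos, fun h' => absurd h' (not_lt.2 hκ)⟩

/-- a small ball inside a neighbourhood -/
theorem exists_ball_sml (κ : ℝ) {o : M} {U : Set M} (hU : U ∈ 𝓝 o) :
    ∃ ρ > 0, Sml κ (2 * ρ) ∧ ball o ρ ⊆ U := by
  obtain ⟨r, hr, hs⟩ := exists_sml κ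
  obtain ⟨ε, hε, hεU⟩ := Metric.mem_nhds_iff.1 hU
  refine ⟨min (r / 2) ε, lt_min (by linarith) hε, Sml.mono' hs ?_,
    (ball_subset_ball (min_le_right _ _)).trans hεU⟩
  have := min_le_left (r / 2) ε
  linarith

theorem dist_lt_of_mem_ball {o x y : M} {ρ : ℝ} (hx : x ∈ ball o ρ) (hy : y ∈ ball o ρ) :
    dist x y < 2 * ρ := by
  have h := dist_triangle x o y
  rw [mem_ball] at hx hy
  rw [dist_comm o y] at h
  linarith

theorem small_of_mem_ball {κ ρ : ℝ} (hs : Sml κ (2 * ρ)) {o p x y : M} (hp : p ∈ ball o ρ)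
    (hx : x ∈ ball o ρ) (hy : y ∈ ball o ρ) : Small κ p x y := by
  unfold Small
  have h1 := dist_lt_of_mem_ball hp hx
  have h2 := dist_lt_of_mem_ball hp hy
  have h3 := dist_lt_of_mem_ball hx hy
  have hπ := Real.pi_pos
  rcases lt_or_ge 0 κ with hκ | hκ
  · have h4 := hs hκ
    have h5 : √κ * (dist p x + dist p y + dist x y) ≤ √κ * (3 * (2 * ρ)) :=
      mul_le_mul_of_nonneg_left (by linarith) (Real.sqrt_nonneg _)
    linarith
  · rw [Real.sqrt_eq_zero'.2 hκ, zero_mul]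
    linarith

theorem exists_LQ {κ : ℝ} (hl : H992.IsLen M) {o : M} {U : Set M} (hU : U ∈ 𝓝 o)
    (hq : QuadOn κ U) : ∃ ρ, LQ M κ o ρ := by
  obtain ⟨ρ, hρ, hs, hsub⟩ := exists_ball_sml κ hU
  refine ⟨ρ, hρ, hs, hl, fun z hz x₁ h₁ x₂ h₂ x₃ h₃ n₁ n₂ n₃ => ?_⟩
  have h := hq z (hsub hz) x₁ (hsub h₁) x₂ (hsub h₂) x₃ (hsub h₃) n₁.symm n₂.symm n₃.symm
    (small_of_mem_ball hs hz h₁ h₂) (small_of_mem_ball hs hz h₂ h₃) (small_of_mem_ball hs hz h₃ h₁)
  rw [ang_comm κ z x₃ x₁] at h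
  exact h

theorem LQ.quadOn {κ ρ : ℝ} {o : M} (h : LQ M κ o ρ) : QuadOn κ (ball o ρ) := by
  intro p hp x hx y hy z hz n₁ n₂ n₃ _ _ _
  rw [ang_comm κ p z x]
  exact h.sum p hp x hx y hy z hz n₁.symm n₂.symm n₃.symm

end Vale.Agent.P233Y
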