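import Vale.Agent.P233Y.A1

/-!
# P233Z: a maximal strainer is a chart (length spaces with the local `(1+3)`-point comparison)
-/

universe u

namespace Vale.Agent.P233Y

open Vale.Agent.P233 Vale.Agent.P233.AB Vale.Agent.P233.H616 Vale.Agent.P233.Str Real Set Topology
  Metric Filter

variable {M : Type u} [MetricSpace M] {κ ρ : ℝ} {o : M}

/-- approximate midpoints at which the end points are almost opposite -/
theorem LQ.exists_mid (h : LQ M κ o ρ) {x y : M} (hxy : 0 < dist x y) (hρ : dist x y ≤ ρ)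
    {σ η : ℝ} (hσ : 0 < σ) (hη : 0 < η) :
    ∃ q, |dist q x - dist x y / 2| ≤ η ∧ |dist q y - dist x y / 2| ≤ η ∧ cc κ q x y < -1 + σ := by
  have h1 : 0 < sn κ (dist x y / 2) :=
    (ad_of_sml h.sml (by linarith [h.pos])).sn_pos (half_pos hxy)
  have h2 := continuousAt_cvA (c := dist x y) h.sml (half_pos hxy) (half_pos hxy)
    (by linarith [h.pos]) (by linarith [h.pos])
  have h3 : cvA κ (dist x y / 2) (dist x y / 2) (dist x y) < -1 + σ := by
    have h3 := cvA_add h1 h1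
    rw [add_halves] at h3
    linarith
  obtain ⟨e, he, h4⟩ := Metric.eventually_nhds_iff.1 (h2.eventually_lt_const h3)
  obtain ⟨q, h5, h6⟩ := h.len x y _ _ (half_pos hxy).le (half_pos hxy).le (add_halves _)
    (min η (e / 2)) (lt_min hη (half_pos he))
  have h7 := dist_triangle x q y
  rw [dist_comm x q] at h5 h7
  have h8 : |dist q x - dist x y / 2| ≤ min η (e / 2) := abs_le.2 ⟨by linarith, by linarith⟩
  have h9 : |dist q y - dist x y / 2| ≤ min η (e / 2) := abs_le.2 ⟨by linarith, by linarith⟩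
  have h10 := (min_le_right η (e / 2)).trans_lt (half_lt_self he)
  exact ⟨q, h8.trans (min_le_left _ _), h9.trans (min_le_left _ _),
    h4 (y := (dist q x, dist q y)) (max_lt (h8.trans_lt h10) (h9.trans_lt h10))⟩

theorem abs_DD_sub {q a x y : M} {d ε : ℝ} (hd : 0 < d) (hx : q ≠ x) (hy : q ≠ y)
    (h1 : |dist q x - d / 2| ≤ ε * d) (h2 : |dist q y - d / 2| ≤ ε * d)
    (h3 : |dist x a - dist y a| ≤ ε * d) : |DD q a x - DD q a y| ≤ 6 * ε := by
  have e : (DD q a x - DD q a y) * (d / 2) = -(dist x a - dist y a) -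
      DD q a x * (dist q x - d / 2) + DD q a y * (dist q y - d / 2) := by
    linear_combination DD_mul (a := a) hx - DD_mul (a := a) hy
  have b : ∀ z, |dist q z - d / 2| ≤ ε * d → |DD q a z * (dist q z - d / 2)| ≤ ε * d :=
    fun z hz => by
      rw [abs_mul]
      exact (mul_le_of_le_one_left (abs_nonneg _) (abs_DD_le q a z)).trans hz
  have b1 := abs_le.1 (b x h1)
  have b2 := abs_le.1 (b y h2)
  have b3 := abs_le.1 h3
  refine le_of_mul_le_mul_right ?_ (half_pos hd)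
  rw [← abs_of_pos (half_pos hd), ← abs_mul, e, abs_of_pos (half_pos hd), abs_le]
  constructor <;> linarith

theorem isStr_cons {R δ δ' : ℝ} {k : ℕ} {a b : Fin k → M} {q x y : M} (hS : IsStr κ R δ a b q)
    (hδ : δ ≤ δ') (hx : q ≠ x) (hy : q ≠ y) (hxR : dist q x < R) (hyR : dist q y < R)
    (hxy : cc κ q x y < -1 + δ')
    (est : ∀ i, cc κ q (a i) x < δ' ∧ cc κ q (a i) y < δ' ∧ cc κ q (b i) x < δ' ∧
      cc κ q (b i) y < δ') : IsStr κ R δ' (Fin.cons x a) (Fin.cons y b) q := by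
  refine ⟨Fin.cases hx hS.ha, Fin.cases hy hS.hb, Fin.cases hxR hS.haρ, Fin.cases hyR hS.hbρ,
    Fin.cases hxy fun i => (hS.opp i).trans_le (by linarith), ?_, ?_, ?_⟩
  · exact Fin.cases (Fin.cases (fun h => absurd rfl h) fun j _ =>
      (cc_comm κ q x (a j)).trans_lt (est j).1) fun i => Fin.cases (fun _ => (est i).1)
        fun j hij => (hS.aa i j fun h => hij (congrArg _ h)).trans_le hδ
  · exact Fin.cases (Fin.cases (fun h => absurd rfl h) fun j _ =>
      (cc_comm κ q x (b j)).trans_lt (est j).2.2.1) fun i => Fin.cases (fun _ => (est i).2.1)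
        fun j hij => (hS.ab i j fun h => hij (congrArg _ h)).trans_le hδ
  · exact Fin.cases (Fin.cases (fun h => absurd rfl h) fun j _ =>
      (cc_comm κ q y (b j)).trans_lt (est j).2.2.2) fun i => Fin.cases (fun _ => (est i).2.2.2)
        fun j hij => (hS.bb i j fun h => hij (congrArg _ h)).trans_le hδ

theorem LQ.chart (h : LQ M κ o ρ) {δ δ' : ℝ} {k : ℕ} {a b : Fin k → M} {p : M}
    (hp : p ∈ ball o (ρ / 4)) (hS : IsStr κ (ρ / 4) δ a b p) (_hδ : 0 ≤ δ) (hδδ' : δ ≤ δ')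
    (hδ' : 2 * √(2 * δ) < δ')
    (hmax : ∀ (a' b' : Fin (k + 1) → M) (q : M), q ∈ ball o (ρ / 4) →
      ¬ IsStr κ (ρ / 4) δ' a' b' q) :
    ∃ r > 0, ∃ L > 0, ∀ x ∈ ball p r, ∀ y ∈ ball p r,
      dist x y ≤ L * dist (stm a x) (stm a y) := by
  have hρ := h.pos
  have hs : Sml κ (ρ / 4) := Sml.mono' h.sml (by linarith)
  obtain ⟨r, hr, ℓ, hℓ, hU⟩ := exists_unif hs hS
  obtain ⟨ε, hε, hεd⟩ : ∃ ε > 0, 2 * √(2 * δ) + 9 * ε < δ' :=
    ⟨(δ' - 2 * √(2 * δ)) / 16, by linarith, by linarith⟩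
  have hη : 0 ≤ √(2 * δ) := Real.sqrt_nonneg _
  obtain ⟨t₀, ht₀, hA⟩ := cvA_approx κ hs hℓ hε
  have hA : Apx κ (ρ / 4) ℓ ε t₀ := hA
  have hp' := mem_ball.1 hp
  obtain ⟨r₁, hr₁, hrr, hrt, hrρ, hro⟩ : ∃ r₁ > 0, 3 * r₁ ≤ r ∧ 2 * r₁ ≤ t₀ ∧ 2 * r₁ ≤ ρ / 4 ∧
      3 * r₁ ≤ ρ / 4 - dist p o := by
    refine ⟨min (min (r / 3) (t₀ / 2)) (min (ρ / 8) ((ρ / 4 - dist p o) / 3)),
      lt_min (by positivity) (lt_min (by positivity) (by linarith)), ?_⟩
    have h1 := min_le_left (min (r / 3) (t₀ / 2)) (min (ρ / 8) ((ρ / 4 - dist p o) / 3))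
    have h2 := min_le_right (min (r / 3) (t₀ / 2)) (min (ρ / 8) ((ρ / 4 - dist p o) / 3))
    rw [le_min_iff] at h1 h2
    exact ⟨by linarith [h1.1], by linarith [h1.2], by linarith [h2.1], by linarith [h2.2]⟩
  refine ⟨r₁, hr₁, 1 / ε, by positivity, fun x hx y hy => le_of_not_gt fun hcon => ?_⟩
  have hxy : 0 < dist x y := lt_of_le_of_lt (by positivity) hcon
  rw [one_div, inv_mul_lt_iff₀ hε] at hcon
  have hd : ∀ i, |dist x (a i) - dist y (a i)| ≤ ε * dist x y := fun i =>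
    (dist_le_pi_dist (stm a x) (stm a y) i).trans hcon.le
  have hxyr := dist_lt_of_mem_ball hx hy
  obtain ⟨q, hq1, hq2, hq3⟩ := h.exists_mid hxy (by linarith) (σ := min (ε ^ 2 / 2) δ')
    (η := min ε (1 / 4) * dist x y) (lt_min (by positivity) (by linarith)) (by positivity)
  have m1 := mul_le_mul_of_nonneg_right (min_le_left ε (1 / 4)) hxy.le
  have m2 := mul_le_mul_of_nonneg_right (min_le_right ε (1 / 4)) hxy.le
  have m3 := abs_le.1 (hq1.trans m2)
  have m4 := abs_le.1 (hq2.trans m2)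
  have hσ : √(2 * min (ε ^ 2 / 2) δ') ≤ ε :=
    Real.sqrt_le_iff.2 ⟨hε.le, by linarith [min_le_left (ε ^ 2 / 2) δ']⟩
  have hqp : q ∈ ball p (3 * r₁) := by
    rw [mem_ball] at hx ⊢
    linarith [dist_triangle q x p]
  have hin : ∀ z ∈ ball p (3 * r₁), z ∈ ball o (ρ / 4) := fun z hz => by
    rw [mem_ball] at hz ⊢
    linarith [dist_triangle z p o]
  have hsub : ball p r₁ ⊆ ball p (3 * r₁) := ball_subset_ball (by linarith)
  have hbig : ball o (ρ / 4) ⊆ ball o ρ := ball_subset_ball (by linarith)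
  have hnear : ∀ z, dist p z < ρ / 4 → z ∈ ball o ρ := fun z hz => by
    rw [mem_ball]
    rw [dist_comm] at hz
    linarith [dist_triangle z p o]
  have hao := fun i => hnear _ (hS.haρ i)
  have hbo := fun i => hnear _ (hS.hbρ i)
  have hxo := hbig (hin x (hsub hx))
  have hyo := hbig (hin y (hsub hy))
  have hqo := hbig (hin q hqp)
  obtain ⟨hSx, hax, hbx⟩ := hU x (ball_subset_ball hrr (hsub hx))
  obtain ⟨hSy, hay, hby⟩ := hU y (ball_subset_ball hrr (hsub hy))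
  obtain ⟨hSq, haq, hbq⟩ := hU q (ball_subset_ball hrr hqp)
  have hqx : q ≠ x := dist_pos.1 (by linarith)
  have hqy : q ≠ y := dist_pos.1 (by linarith)
  have hxt : dist q x ≤ t₀ := by linarith
  have hyt : dist q y ≤ t₀ := by linarith
  refine hmax _ _ q (hin q hqp) (isStr_cons hSq hδδ' hqx hqy (by linarith) (by linarith)
    (by linarith [min_le_right (ε ^ 2 / 2) δ']) fun i => ?_)
  have c1 := h.cc_sum hqo hxo (hao i) hyo hqx (hSq.ha i) hqy hq3.le
  have c2 := h.cc_sum hqo hxo (hbo i) hyo hqx (hSq.hb i) hqy hq3.le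
  rw [cc_comm κ q x, cc_comm κ q y] at c1 c2
  have c3 := h.sum_DD hA hℓ hxo (hao i) (hbo i) hqo (hax i) (hbx i) (hSx.haρ i).le
    (hSx.hbρ i).le (hSx.opp i).le hqx.symm (by rwa [dist_comm])
  have c4 := h.sum_DD hA hℓ hyo (hao i) (hbo i) hqo (hay i) (hby i) (hSy.haρ i).le
    (hSy.hbρ i).le (hSy.opp i).le hqy.symm (by rwa [dist_comm])
  rw [DD_swap q (a i) x, DD_swap q (b i) x] at c3
  rw [DD_swap q (a i) y, DD_swap q (b i) y] at c4
  have c5 := abs_le.1 (abs_DD_sub hxy hqx hqy (hq1.trans m1) (hq2.trans m1) (hd i))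
  have f1 := abs_le.1 (hA.abs_le (haq i) (hSq.haρ i).le hqx hxt)
  have f2 := abs_le.1 (hA.abs_le (haq i) (hSq.haρ i).le hqy hyt)
  have f3 := abs_le.1 (hA.abs_le (hbq i) (hSq.hbρ i).le hqx hxt)
  have f4 := abs_le.1 (hA.abs_le (hbq i) (hSq.hbρ i).le hqy hyt)
  refine ⟨?_, ?_, ?_, ?_⟩ <;> linarith [c5.1, c5.2, f1.1, f1.2, f2.1, f2.2, f3.1, f3.2, f4.1, f4.2]

end Vale.Agent.P233Y
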