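import Vale.Agent.P233Y.AHinge

/-!
# P233Y: the globalization theorem

A complete geodesic space with local triangle comparison satisfies the comparison for all triangles
of perimeter `< 2π/√κ`.
-/

open Real Set Topology Filter Metric

universe u

namespace Vale.Agent.P233Y

open Vale.Agent.P233 Vale.Agent.P233.AB Vale.Agent.P233.H616

variable {M : Type u} [MetricSpace M] {κ : ℝ}

theorem mS_ext (κ q s t u : ℝ) : sn κ s * mS κ (s + t) q u =
    sn κ (s + t) * mS κ s q u - sn κ t * (md κ q - md κ s) + sn κ s * md κ t := by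
  unfold mS
  rw [md_add, sn_add, cs_eq, cs_eq]
  have h := sn_sq κ s
  linear_combination (sn κ t * (1 - κ * md κ q)) * h

theorem mS_pair (κ r s t u v : ℝ) : sn κ s * mS κ r t v + sn κ t * mS κ r s u =
    sn κ (s + t) * md κ r + sn κ s * md κ t + sn κ t * md κ s
      - sn κ s * sn κ t * (sn κ r * (u + v)) := by
  unfold mS
  rw [sn_add, cs_eq, cs_eq]
  ring

/-- uniform constants -/
theorem exists_const {ℓ D : ℝ} (hℓ : 0 < ℓ) (hκ : √κ * ℓ ≤ π) (hD : 0 < D) :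
    ∃ δ > 0, ∀ h b u v : ℝ, ℓ / 18 ≤ h → h ≤ ℓ / 2 → 0 ≤ b → b ≤ ℓ → 0 ≤ u → u ≤ v → v ≤ ℓ →
      sn κ h * D ≤ sn κ b * (md κ v - md κ u) → δ ≤ v - u := by
  have hπ := Real.pi_pos
  obtain ⟨t₀, ht₀, hmin⟩ := (isCompact_Icc (a := ℓ / 18) (b := ℓ / 2)).exists_isMinOn
    ⟨ℓ / 18, le_rfl, by linarith⟩ (continuous_sn κ).continuousOn
  have hm : 0 < sn κ t₀ := by
    refine H616.sn_pos (by linarith [ht₀.1]) fun _ => ?_
    have : √κ * t₀ ≤ √κ * (ℓ / 2) := mul_le_mul_of_nonneg_left ht₀.2 (Real.sqrt_nonneg _)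
    linarith
  obtain ⟨K, hK⟩ := (isCompact_Icc (a := 0) (b := ℓ)).exists_bound_of_continuousOn
    (continuous_sn κ).continuousOn
  have hK0 : 0 ≤ K := (norm_nonneg _).trans (hK 0 ⟨le_rfl, hℓ.le⟩)
  refine ⟨sn κ t₀ * D / (K * K + 1), by positivity, fun h b u v h1 h2 h3 h4 h5 h6 h7 h8 => ?_⟩
  have e1 : sn κ t₀ ≤ sn κ h := hmin ⟨h1, h2⟩
  have e2 : ‖md κ v - md κ u‖ ≤ K * ‖v - u‖ :=
    (convex_Icc 0 ℓ).norm_image_sub_le_of_norm_hasDerivWithin_le
      (fun x _ => (hasDerivAt_md κ x).hasDerivWithinAt) hK ⟨h5, h6.trans h7⟩ ⟨h5.trans h6, h7⟩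
  have e3 := hK b ⟨h3, h4⟩
  rw [Real.norm_eq_abs] at e2 e3
  rw [Real.norm_eq_abs, abs_of_nonneg (sub_nonneg.2 h6)] at e2
  have e4 : sn κ b * (md κ v - md κ u) ≤ K * (K * (v - u)) := by
    refine (le_abs_self _).trans ?_
    rw [abs_mul]
    exact mul_le_mul e3 e2 (abs_nonneg _) hK0
  rw [div_le_iff₀ (by positivity)]
  have e5 := mul_le_mul_of_nonneg_right e1 hD.le
  nlinarith [sub_nonneg.2 h6]

/-- one step of the construction of smaller hinges -/
theorem hinge_step [CompleteSpace M]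
    (hgeo : ∀ x y : M, ∀ s t : ℝ, 0 ≤ s → 0 ≤ t → s + t = dist x y →
      ∃ w, dist x w = s ∧ dist w y = t)
    (hloc : ∀ o : M, ∃ ρ, LC M κ o ρ) {ℓ D δ : ℝ} (hκ : √κ * ℓ ≤ π) (hD : 0 < D)
    (hδ : ∀ h b u v : ℝ, ℓ / 18 ≤ h → h ≤ ℓ / 2 → 0 ≤ b → b ≤ ℓ → 0 ≤ u → u ≤ v → v ≤ ℓ →
      sn κ h * D ≤ sn κ b * (md κ v - md κ u) → δ ≤ v - u)
    {p q : M} (H : ∀ y, dist y p < ℓ → HG κ y (2 * ℓ / 3)) {x : M} {σ γ : ℝ → M}
    (hσ : IsGeod σ x p) (hγ : IsGeod γ x q) (hab : dist x p ≤ dist x q)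
    (hl : dist x p + dist x q < ℓ)
    (hdef : D ≤ md κ (dist p q) - mS κ (dist x p) (dist x q) (hc κ σ γ)) :
    ∃ (x' : M) (σ' γ' : ℝ → M), IsGeod σ' x' p ∧ IsGeod γ' x' q ∧
      dist x' p + dist x' q + δ ≤ dist x p + dist x q ∧
      D ≤ md κ (dist p q) - mS κ (dist x' p) (dist x' q) (hc κ σ' γ') := by
  have ha0 : 0 ≤ dist x p := dist_nonneg
  have hb0 : 0 ≤ dist x q := dist_nonneg
  have hx := H x (by linarith)
  have hge : 2 * ℓ / 3 ≤ dist x p + dist x q := by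
    by_contra hlt
    have := hx p q σ γ hσ hγ (not_le.1 hlt)
    linarith
  have ad : ∀ t, t < ℓ → Ad κ t := fun t ht => by
    unfold Ad
    rcases (Real.sqrt_nonneg κ).eq_or_lt with h | h
    · rw [← h, zero_mul]
      exact Real.pi_pos
    · exact lt_of_lt_of_le (mul_lt_mul_of_pos_left ht h) hκ
  obtain ⟨h, hh⟩ : ∃ h, h = (2 * ℓ / 3 - dist x p) / 3 := ⟨_, rfl⟩
  have h1 : ℓ / 18 ≤ h := by linarith
  have h2 : h ≤ 2 * ℓ / 9 := by linarith
  have h3 : h < dist x q := by linarith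
  have h0 : 0 < h := by linarith
  obtain ⟨σ', hσ'⟩ : ∃ σ', IsGeod σ' (γ h) p := H416.exists_geo hgeo _ _
  have d1 : dist x (γ h) = h := hγ.dist_left h0.le h3.le
  have d2 : dist (γ h) q = dist x q - h := hγ.dist_right h0.le h3.le
  have d3 : dist (γ h) p ≤ h + dist x p := by
    have := dist_triangle_left (γ h) p x
    linarith
  have gf : IsGeod (fun s => γ (h + s)) (γ h) q := by
    have := hγ.fwd (e := dist x q - h) h0.le (by linarith) (by linarith)
    rwa [add_sub_cancel, hγ.2.1] at this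
  have gb : IsGeod (fun s => γ (h - s)) (γ h) x := by
    have := hγ.bwd (e := h) le_rfl h0.le h3.le
    rwa [sub_self, hγ.1] at this
  have i1 := hx p (γ h) σ γ hσ (hγ.init h0.le h3.le) (by linarith)
  have i2 := H (γ h) (by linarith) p x σ' _ hσ' gb (by rw [dist_comm (γ h) x]; linarith)
  rw [d1, dist_comm p (γ h), mS_comm] at i1
  rw [dist_comm (γ h) x, d1, dist_comm p x] at i2
  have sh : 0 < sn κ h := (ad h (by linarith)).sn_pos h0
  have sb : 0 ≤ sn κ (dist x q) := (ad _ (by linarith)).sn_nonneg hb0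
  have sk : 0 ≤ sn κ (dist x q - h) := (ad _ (by linarith)).sn_nonneg (by linarith)
  have sa' : 0 ≤ sn κ (dist (γ h) p) := (ad _ (by linarith)).sn_nonneg dist_nonneg
  have i3 := adj_geod hloc hγ h0 h3 hσ' sa'
  have e1 := mS_ext κ (dist x p) h (dist x q - h) (hc κ σ γ)
  have e2 := mS_ext κ (dist x p) h (dist x q - h) (-1)
  have e3 := mS_pair κ (dist (γ h) p) h (dist x q - h) (hc κ σ' fun s => γ (h - s))
    (hc κ σ' fun s => γ (h + s))
  rw [add_sub_cancel] at e1 e2 e3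
  rw [mS_neg_one, mS_neg_one] at e2
  rw [mS_comm] at hdef
  have f1 := mul_le_mul_of_nonneg_left i1 sb
  have f2 := mul_le_mul_of_nonneg_left i2 sk
  have f3 := mul_nonneg (mul_nonneg sh.le sk) i3
  have f4 : md κ (dist p q) ≤ md κ (dist x q + dist x p) := by
    refine md_le_md dist_nonneg ?_ (le_of_lt (ad _ (by linarith)))
    have := dist_triangle_left p q x
    linarith
  refine ⟨γ h, σ', _, hσ', gf, ?_, ?_⟩
  · have f5 := mul_le_mul_of_nonneg_left (hdef.trans (sub_le_sub_right f4 _)) sh.le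
    have := hδ h (dist x q) (dist (γ h) p) (h + dist x p) h1 (by linarith) hb0 (by linarith)
      dist_nonneg d3 (by linarith) (by linarith)
    linarith
  · refine hdef.trans (sub_le_sub_left ?_ _)
    rw [d2]
    refine le_of_mul_le_mul_left ?_ sh
    linarith

/-- **Key lemma.** -/
theorem hg_key [CompleteSpace M]
    (hgeo : ∀ x y : M, ∀ s t : ℝ, 0 ≤ s → 0 ≤ t → s + t = dist x y →
      ∃ w, dist x w = s ∧ dist w y = t)
    (hloc : ∀ o : M, ∃ ρ, LC M κ o ρ) {ℓ : ℝ} (hℓ : 0 < ℓ) (hκ : √κ * ℓ ≤ π) {x₀ : M}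
    (H : ∀ y, dist x₀ y ≤ 2 * ℓ → HG κ y (2 * ℓ / 3)) : HG κ x₀ ℓ := by
  intro p q σ γ hσ hγ hl
  by_contra hcon
  rw [not_le] at hcon
  obtain ⟨D, hD⟩ : ∃ D, D = md κ (dist p q) - mS κ (dist x₀ p) (dist x₀ q) (hc κ σ γ) := ⟨_, rfl⟩
  have hD0 : 0 < D := by linarith
  obtain ⟨δ, hδ0, hδ⟩ := exists_const hℓ hκ hD0
  have near : ∀ z, dist x₀ z < ℓ → ∀ y, dist y z < ℓ → HG κ y (2 * ℓ / 3) := fun z hz y hy => by
    refine H y ?_
    have := dist_triangle_right x₀ y z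
    linarith
  have Hp := near p (by linarith [dist_nonneg (x := x₀) (y := q)])
  have Hq := near q (by linarith [dist_nonneg (x := x₀) (y := p)])
  have key : ∀ (N : ℕ) (x : M) (σ γ : ℝ → M), IsGeod σ x p → IsGeod γ x q →
      dist x p + dist x q < ℓ → D ≤ md κ (dist p q) - mS κ (dist x p) (dist x q) (hc κ σ γ) →
      N * δ ≤ dist x p + dist x q := by
    intro N
    induction N with
    | zero =>
      intro x _ _ _ _ _ _
      rw [Nat.cast_zero, zero_mul]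
      positivity
    | succ N ih =>
      intro x σ γ h1 h2 h3 h4
      push_cast
      rcases le_total (dist x p) (dist x q) with hab | hab
      · obtain ⟨x', σ', γ', g1, g2, g3, g4⟩ := hinge_step hgeo hloc hκ hD0 hδ Hp h1 h2 hab h3 h4
        have := ih x' σ' γ' g1 g2 (by linarith) g4
        linarith
      · rw [dist_comm p q, mS_comm, hc_comm] at h4
        obtain ⟨x', γ', σ', g1, g2, g3, g4⟩ :=
          hinge_step hgeo hloc hκ hD0 hδ Hq h2 h1 hab (by linarith) h4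
        rw [dist_comm q p, mS_comm, hc_comm] at g4
        have := ih x' σ' γ' g2 g1 (by linarith) g4
        linarith
  obtain ⟨N, hN⟩ := exists_nat_gt (ℓ / δ)
  rw [div_lt_iff₀ hδ0] at hN
  have := key N x₀ σ γ hσ hγ hl hD.le
  linarith

/-- all hinges of total length `< π/√κ` satisfy the comparison -/
theorem hg_all [CompleteSpace M]
    (hgeo : ∀ x y : M, ∀ s t : ℝ, 0 ≤ s → 0 ≤ t → s + t = dist x y →
      ∃ w, dist x w = s ∧ dist w y = t)
    (hloc : ∀ o : M, ∃ ρ, LC M κ o ρ) {ℓ : ℝ} (hℓ : 0 < ℓ) (hκ : √κ * ℓ ≤ π) (x₀ : M) :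
    HG κ x₀ ℓ := by
  by_contra hcon
  have step : ∀ (n : ℕ) (x : M), ¬ HG κ x (ℓ * (2 / 3) ^ n) →
      ∃ y, dist x y ≤ 2 * ℓ * (2 / 3) ^ n ∧ ¬ HG κ y (ℓ * (2 / 3) ^ (n + 1)) := by
    intro n x hx
    by_contra h
    refine hx (hg_key hgeo hloc (by positivity) ?_ fun y hy => ?_)
    · refine le_trans (mul_le_mul_of_nonneg_left ?_ (Real.sqrt_nonneg _)) hκ
      exact mul_le_of_le_one_right hℓ.le (pow_le_one₀ (by norm_num) (by norm_num))
    · by_contra h'
      refine h ⟨y, by linarith, ?_⟩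
      rwa [show ℓ * (2 / 3) ^ (n + 1) = 2 * (ℓ * (2 / 3) ^ n) / 3 by ring]
  choose! g hg1 hg2 using step
  let s : ℕ → M := fun n => Nat.rec x₀ (fun n x => g n x) n
  have hs : ∀ n, s (n + 1) = g n (s n) := fun n => rfl
  have bad : ∀ n, ¬ HG κ (s n) (ℓ * (2 / 3) ^ n) := by
    intro n
    induction n with
    | zero =>
      rw [pow_zero, mul_one]
      exact hcon
    | succ n ih => exact hg2 n _ ih
  have hcau : CauchySeq s :=
    cauchySeq_of_le_geometric (2 / 3) (2 * ℓ) (by norm_num) fun n => hg1 n _ (bad n)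
  obtain ⟨o, ho⟩ := cauchySeq_tendsto_of_complete hcau
  obtain ⟨ρ, hρ⟩ := hloc o
  have h1 : ∀ᶠ n in atTop, s n ∈ ball o (ρ / 2) := ho (ball_mem_nhds o (half_pos hρ.pos))
  have h2 : Tendsto (fun n : ℕ => ℓ * (2 / 3 : ℝ) ^ n) atTop (𝓝 (ℓ * 0)) :=
    (tendsto_pow_atTop_nhds_zero_of_lt_one (by norm_num) (by norm_num)).const_mul ℓ
  rw [mul_zero] at h2
  obtain ⟨n, g1, g2⟩ := (h1.and (h2.eventually (gt_mem_nhds (half_pos hρ.pos)))).exists
  exact bad n ((hρ.hg g1).mono g2.le)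

theorem cs_pos_of {t : ℝ} (h : Ad κ (2 * |t|)) : 0 < cs κ t := by
  rcases lt_trichotomy κ 0 with h0 | h0 | h0
  · rw [cs_neg' h0]
    exact Real.cosh_pos _
  · rw [h0, cs_zero']
    exact one_pos
  · rw [H616.cs_pos h0]
    unfold Ad at h
    have h1 : |√κ * t| < π / 2 := by
      rw [abs_mul, abs_of_nonneg (Real.sqrt_nonneg _)]
      linarith
    exact Real.cos_pos_of_mem_Ioo (abs_lt.1 h1)

/-- a maximum principle -/
theorem nonneg_of_mid {L : ℝ} {F : ℝ → ℝ} (hκ : Ad κ L) (hF : ContinuousOn F (Icc 0 L))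
    (h0 : 0 ≤ F 0) (h1 : 0 ≤ F L)
    (hmid : ∀ τ ∈ Ioo 0 L, ∃ h, 0 < h ∧ h ≤ τ ∧ τ + h ≤ L ∧
      F (τ - h) + F (τ + h) ≤ 2 * cs κ h * F τ) : ∀ τ ∈ Icc 0 L, 0 ≤ F τ := by
  intro τ₁ hτ₁
  have hψ : ∀ τ ∈ Icc 0 L, 0 < cs κ (τ - L / 2) := fun τ hτ => by
    refine cs_pos_of (hκ.mono ?_)
    have : |τ - L / 2| ≤ L / 2 := abs_le.2 ⟨by linarith [hτ.1], by linarith [hτ.2]⟩
    linarith
  have hφ : ContinuousOn (fun τ => F τ / cs κ (τ - L / 2)) (Icc 0 L) :=
    hF.div ((continuous_cs κ).comp (by fun_prop)).continuousOn fun τ hτ => (hψ τ hτ).ne'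
  obtain ⟨t, ht, hmin⟩ := isCompact_Icc.exists_isMinOn ⟨τ₁, hτ₁⟩ hφ
  obtain ⟨m, hm⟩ : ∃ m, m = F t / cs κ (t - L / 2) := ⟨_, rfl⟩
  have hge : ∀ τ ∈ Icc 0 L, m * cs κ (τ - L / 2) ≤ F τ := fun τ hτ => by
    rw [← le_div_iff₀ (hψ τ hτ), hm]
    exact hmin hτ
  rcases le_or_gt 0 m with hm0 | hm0
  · exact (mul_nonneg hm0 (hψ τ₁ hτ₁).le).trans (hge τ₁ hτ₁)
  exfalso
  have hS : IsCompact (Icc 0 L ∩ (fun τ => F τ / cs κ (τ - L / 2)) ⁻¹' {m}) :=
    isCompact_Icc.of_isClosed_subset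
      (hφ.preimage_isClosed_of_isClosed isClosed_Icc isClosed_singleton) inter_subset_left
  obtain ⟨τ, ⟨hτ, hτm⟩, hmax⟩ := hS.exists_isGreatest ⟨t, ht, hm.symm⟩
  have hτe : F τ = m * cs κ (τ - L / 2) := (div_eq_iff (hψ τ hτ).ne').1 hτm
  have hneg : F τ < 0 := by
    rw [hτe]
    exact mul_neg_of_neg_of_pos hm0 (hψ τ hτ)
  have hI : τ ∈ Ioo 0 L := by
    refine ⟨lt_of_le_of_ne hτ.1 ?_, lt_of_le_of_ne hτ.2 ?_⟩
    · rintro rfl
      linarith
    · rintro rfl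
      linarith
  obtain ⟨h, g0, g1, g2, g3⟩ := hmid τ hI
  have m1 : τ - h ∈ Icc 0 L := ⟨by linarith, by linarith [hτ.2]⟩
  have m2 : τ + h ∈ Icc 0 L := ⟨by linarith [hτ.1], g2⟩
  have e : cs κ (τ - h - L / 2) + cs κ (τ + h - L / 2) = 2 * cs κ h * cs κ (τ - L / 2) := by
    rw [show τ - h - L / 2 = (τ - L / 2) + -h by ring, show τ + h - L / 2 = (τ - L / 2) + h by ring,
      cs_add, cs_add, cs_neg, sn_neg]
    ring
  have k1 := hge _ m1
  have k2 := hge _ m2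
  have k3 : F (τ + h) = m * cs κ (τ + h - L / 2) := by
    refine le_antisymm ?_ k2
    have : m * cs κ (τ - h - L / 2) + m * cs κ (τ + h - L / 2) = 2 * cs κ h * F τ := by
      rw [hτe, ← mul_add, e]
      ring
    linarith
  have k4 : τ + h ≤ τ := hmax ⟨m2, (div_eq_iff (hψ _ m2).ne').2 k3⟩
  linarith

theorem mid_identity (κ A B τ u h : ℝ) :
    (sn κ (u + h) * (A - md κ (τ - h)) + sn κ (τ - h) * (B - md κ (u + h))) +
      (sn κ (u - h) * (A - md κ (τ + h)) + sn κ (τ + h) * (B - md κ (u - h))) =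
    2 * cs κ h * (sn κ u * (A - md κ τ) + sn κ τ * (B - md κ u)) + 2 * md κ h * sn κ (τ + u) := by
  simp only [sn_add, sn_sub, md_add, md_sub, cs_eq]
  have h := sn_sq κ h
  linear_combination (2 * (1 - κ * md κ u) * sn κ τ + 2 * (1 - κ * md κ τ) * sn κ u) * h

/-- **Globalization theorem.** -/
theorem isAlexandrov_of_loc [CompleteSpace M]
    (hgeo : ∀ x y : M, ∀ s t : ℝ, 0 ≤ s → 0 ≤ t → s + t = dist x y →
      ∃ w, dist x w = s ∧ dist w y = t)
    (hloc : ∀ o : M, ∃ ρ, LC M κ o ρ) : T.IsAlexandrov M κ := by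
  refine ⟨hgeo, fun p x y w hw hp => ?_⟩
  obtain ⟨γ, g1, g2, g3, g4⟩ := H416.exists_geo_through hgeo hw
  have hγ : IsGeod γ x y := ⟨g1, g3, g4⟩
  have half : ∀ r, 2 * r ≤ dist p x + dist p y + dist x y → Ad κ r := fun r hr => by
    unfold Ad
    have := mul_le_mul_of_nonneg_left hr (Real.sqrt_nonneg κ)
    linarith
  have hL : Ad κ (dist x y) := half _ (by linarith [dist_triangle_left x y p])
  have sL : 0 ≤ sn κ (dist x y) := hL.sn_nonneg dist_nonneg
  have hcont : ContinuousOn γ (Icc 0 (dist x y)) := by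
    refine (LipschitzOnWith.of_dist_le_mul (K := 1) fun s hs t ht => ?_).continuousOn
    rw [g4 s hs t ht, NNReal.coe_one, one_mul, Real.dist_eq]
  have key := nonneg_of_mid (F := fun τ => sn κ (dist x y) * md κ (dist p (γ τ)) -
    (sn κ (dist x y - τ) * (md κ (dist p x) - md κ τ) +
      sn κ τ * (md κ (dist p y) - md κ (dist x y - τ)))) hL ?_ ?_ ?_ ?_ (dist x w)
      ⟨dist_nonneg, by linarith [dist_nonneg (x := w) (y := y)]⟩
  · rw [cmp_iff, hw]
    simp only [g2, show dist x y - dist x w = dist w y by linarith] at key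
    linarith
  · have c1 := continuous_md κ
    have c2 := continuous_sn κ
    refine ContinuousOn.sub (continuousOn_const.mul (c1.comp_continuousOn
      ((continuous_const.dist continuous_id).comp_continuousOn hcont)))
      (Continuous.continuousOn ?_)
    fun_prop
  · simp [g1]
  · simp [g3]
  · intro τ hτ
    have d1 := hγ.dist_left hτ.1.le hτ.2.le
    have d2 := hγ.dist_right hτ.1.le hτ.2.le
    have hr : Ad κ (dist (γ τ) p) := by
      refine half _ ?_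
      have t1 := dist_triangle_left (γ τ) p x
      have t2 := dist_triangle_right (γ τ) p y
      rw [dist_comm x p] at t1
      linarith
    obtain ⟨e, he, hre⟩ := hr.exists_add
    obtain ⟨h, h0, h1, h2, h3⟩ : ∃ h, 0 < h ∧ h ≤ τ ∧ τ + h ≤ dist x y ∧ h < e := by
      refine ⟨min (min τ (dist x y - τ)) (e / 2), lt_min (lt_min hτ.1 (by linarith [hτ.2]))
        (by linarith), (min_le_left _ _).trans (min_le_left _ _), ?_,
        (min_le_right _ _).trans_lt (by linarith)⟩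
      have := (min_le_left (min τ (dist x y - τ)) (e / 2)).trans (min_le_right _ _)
      linarith
    refine ⟨h, h0, h1, h2, ?_⟩
    have G := hg_all hgeo hloc (ℓ := dist (γ τ) p + e) (by positivity) (le_of_lt hre) (γ τ)
    obtain ⟨σ, hσ⟩ : ∃ σ, IsGeod σ (γ τ) p := H416.exists_geo hgeo _ _
    have gf := hγ.fwd hτ.1.le h0.le h2
    have gb := hγ.bwd h1 h0.le hτ.2.le
    have e1 : dist (γ τ) (γ (τ + h)) = h := by
      rw [g4 τ ⟨hτ.1.le, hτ.2.le⟩ (τ + h) ⟨by linarith [hτ.1], h2⟩, abs_of_nonpos (by linarith)]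
      ring
    have e2 : dist (γ τ) (γ (τ - h)) = h := by
      rw [g4 τ ⟨hτ.1.le, hτ.2.le⟩ (τ - h) ⟨by linarith, by linarith [hτ.2]⟩,
        abs_of_nonneg (by linarith)]
      ring
    have i1 := G p _ σ _ hσ gf (by linarith)
    have i2 := G p _ σ _ hσ gb (by linarith)
    rw [e1] at i1
    rw [e2] at i2
    have i3 := adj_geod hloc hγ hτ.1 hτ.2 hσ (hr.sn_nonneg dist_nonneg)
    have sh : 0 ≤ sn κ h := (hL.mono (by linarith [hτ.1])).sn_nonneg h0.le
    have i4 : md κ (dist p (γ (τ - h))) + md κ (dist p (γ (τ + h))) ≤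
        2 * cs κ h * md κ (dist p (γ τ)) + 2 * md κ h := by
      unfold mS at i1 i2
      rw [cs_eq, dist_comm p (γ τ)]
      have := mul_nonneg sh i3
      linarith
    have i5 := mul_le_mul_of_nonneg_left i4 sL
    have i6 := mid_identity κ (md κ (dist p x)) (md κ (dist p y)) τ (dist x y - τ) h
    rw [add_sub_cancel] at i6
    simp only [show dist x y - (τ - h) = dist x y - τ + h by ring,
      show dist x y - (τ + h) = dist x y - τ - h by ring]
    linarith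

end Vale.Agent.P233Y
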