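import Vale.Agent.P233Y.A1
import Vale.Agent.P233.H416.GeoCurve

/-!
# P233Y: geodesics, angles of hinges, and the local hinge comparison
-/

open Real Set Topology Filter Metric

universe u

namespace Vale.Agent.P233Y

open Vale.Agent.P233 Vale.Agent.P233.AB Vale.Agent.P233.H616

variable {M : Type u} [MetricSpace M] {κ ρ : ℝ} {o : M}

/-! ### geodesics -/

theorem IsGeod.dist_left {γ : ℝ → M} {x y : M} (h : IsGeod γ x y) {s : ℝ} (h0 : 0 ≤ s)
    (h1 : s ≤ dist x y) : dist x (γ s) = s := by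
  have := h.2.2 0 ⟨le_rfl, dist_nonneg⟩ s ⟨h0, h1⟩
  rwa [h.1, zero_sub, abs_neg, abs_of_nonneg h0] at this

theorem IsGeod.dist_right {γ : ℝ → M} {x y : M} (h : IsGeod γ x y) {s : ℝ} (h0 : 0 ≤ s)
    (h1 : s ≤ dist x y) : dist (γ s) y = dist x y - s := by
  have := h.2.2 s ⟨h0, h1⟩ _ ⟨dist_nonneg, le_rfl⟩
  rwa [h.2.1, abs_sub_comm, abs_of_nonneg (sub_nonneg.2 h1)] at this

/-- a part of a geodesic, forwards -/
theorem IsGeod.fwd {γ : ℝ → M} {x y : M} (h : IsGeod γ x y) {τ e : ℝ} (h0 : 0 ≤ τ) (he : 0 ≤ e)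
    (h1 : τ + e ≤ dist x y) : IsGeod (fun s => γ (τ + s)) (γ τ) (γ (τ + e)) := by
  have hd : dist (γ τ) (γ (τ + e)) = e := by
    rw [h.2.2 τ ⟨h0, by linarith⟩ (τ + e) ⟨by linarith, h1⟩, abs_of_nonpos (by linarith)]
    ring
  refine ⟨by simp, by rw [hd], fun s hs t ht => ?_⟩
  rw [hd] at hs ht
  rw [h.2.2 (τ + s) ⟨by linarith [hs.1], by linarith [hs.2]⟩ (τ + t)
    ⟨by linarith [ht.1], by linarith [ht.2]⟩]
  congr 1
  ring

/-- a part of a geodesic, backwards -/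
theorem IsGeod.bwd {γ : ℝ → M} {x y : M} (h : IsGeod γ x y) {τ e : ℝ} (h0 : e ≤ τ) (he : 0 ≤ e)
    (h1 : τ ≤ dist x y) : IsGeod (fun s => γ (τ - s)) (γ τ) (γ (τ - e)) := by
  have hd : dist (γ τ) (γ (τ - e)) = e := by
    rw [h.2.2 τ ⟨by linarith, h1⟩ (τ - e) ⟨by linarith, by linarith⟩, abs_of_nonneg (by linarith)]
    ring
  refine ⟨by simp, by rw [hd], fun s hs t ht => ?_⟩
  rw [hd] at hs ht
  rw [h.2.2 (τ - s) ⟨by linarith [hs.2], by linarith [hs.1]⟩ (τ - t)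
    ⟨by linarith [ht.2], by linarith [ht.1]⟩, abs_sub_comm]
  congr 1
  ring

/-- the initial part of a geodesic -/
theorem IsGeod.init {γ : ℝ → M} {x y : M} (h : IsGeod γ x y) {e : ℝ} (he : 0 ≤ e)
    (h1 : e ≤ dist x y) : IsGeod γ x (γ e) := by
  have := h.fwd le_rfl he (by linarith)
  simp only [zero_add] at this
  rwa [h.1] at this

/-! ### the cosine of the angle -/

/-- `γ` leaves `x` with unit speed -/
def Ray (γ : ℝ → M) (x : M) : Prop := ∀ᶠ s in 𝓝[>] (0 : ℝ), dist x (γ s) = s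

theorem ev_lt {e : ℝ} (he : 0 < e) : ∀ᶠ s in 𝓝[>] (0 : ℝ), 0 < s ∧ s < e := by
  filter_upwards [Ioo_mem_nhdsGT he] with s hs using hs

theorem IsGeod.ray {γ : ℝ → M} {x y : M} (h : IsGeod γ x y) (hxy : 0 < dist x y) : Ray γ x := by
  filter_upwards [ev_lt hxy] with s hs using h.dist_left hs.1.le hs.2.le

/-- the cosine of the angle between two curves -/
noncomputable def hc (κ : ℝ) (σ γ : ℝ → M) : ℝ :=
  limsup (fun s => cvA κ s s (dist (σ s) (γ s))) (𝓝[>] (0 : ℝ))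

theorem hc_comm (κ : ℝ) (σ γ : ℝ → M) : hc κ σ γ = hc κ γ σ := by
  unfold hc
  simp only [dist_comm (σ _)]

theorem Ray.bd (κ : ℝ) {σ γ : ℝ → M} {x : M} (hσ : Ray σ x) (hγ : Ray γ x) :
    ∀ᶠ s in 𝓝[>] (0 : ℝ), -1 ≤ cvA κ s s (dist (σ s) (γ s)) ∧
      cvA κ s s (dist (σ s) (γ s)) ≤ 1 := by
  obtain ⟨r, hr, hs⟩ := exists_sml κ
  filter_upwards [hσ, hγ, ev_lt hr] with s h1 h2 h3
  have h4 : dist (σ s) (γ s) ≤ s + s := by
    have := dist_triangle_left (σ s) (γ s) x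
    linarith
  have h5 : 0 < sn κ s := (ad_of_sml hs (by linarith)).sn_pos h3.1
  have h6 : Ad κ (s + s + dist (σ s) (γ s)) := ad_of_sml hs (by linarith)
  have h7 : Ad κ (dist (σ s) (γ s)) := h6.mono (by linarith)
  refine ⟨neg_one_le_cvA h5 h5 dist_nonneg h4 ?_, cvA_le_one h5 h5 (by simp) (le_of_lt h7)⟩
  have := Real.pi_pos
  unfold Ad at h6
  linarith

theorem hc_le {σ γ : ℝ → M} {x : M} (hσ : Ray σ x) (hγ : Ray γ x) {u : ℝ}
    (h : ∀ᶠ s in 𝓝[>] (0 : ℝ), cvA κ s s (dist (σ s) (γ s)) ≤ u) : hc κ σ γ ≤ u :=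
  limsup_le_of_le (isCoboundedUnder_le_of_eventually_le _ ((hσ.bd κ hγ).mono fun _ h => h.1)) h

theorem hc_add {τ γ γ' : ℝ → M} {x : M} (hτ : Ray τ x) (hγ : Ray γ x) (hγ' : Ray γ' x)
    (h : ∀ᶠ s in 𝓝[>] (0 : ℝ), 0 ≤ cvA κ s s (dist (τ s) (γ s)) + cvA κ s s (dist (τ s) (γ' s))) :
    0 ≤ hc κ τ γ + hc κ τ γ' := by
  by_contra hcon
  rw [not_le] at hcon
  set e := -(hc κ τ γ + hc κ τ γ') / 2 with he
  have h1 : ∀ᶠ s in 𝓝[>] (0 : ℝ), cvA κ s s (dist (τ s) (γ s)) < hc κ τ γ + e :=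
    eventually_lt_of_limsup_lt (by unfold hc at *; linarith)
      (isBoundedUnder_of_eventually_le ((hτ.bd κ hγ).mono fun _ h => h.2))
  have h2 : ∀ᶠ s in 𝓝[>] (0 : ℝ), cvA κ s s (dist (τ s) (γ' s)) < hc κ τ γ' + e :=
    eventually_lt_of_limsup_lt (by unfold hc at *; linarith)
      (isBoundedUnder_of_eventually_le ((hτ.bd κ hγ').mono fun _ h => h.2))
  obtain ⟨s, g1, g2, g3⟩ := (h.and (h1.and h2)).exists
  linarith

/-- adjacent angles have the sum `≤ π` -/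
theorem LC.adj (h : LC M κ o ρ) {τ γ γ' : ℝ → M} (hτ : Ray τ o) (hγ : Ray γ o) (hγ' : Ray γ' o)
    (hopp : ∀ᶠ s in 𝓝[>] (0 : ℝ), dist (γ s) (γ' s) = s + s) : 0 ≤ hc κ τ γ + hc κ τ γ' := by
  refine hc_add hτ hγ hγ' ?_
  filter_upwards [hτ, hγ, hγ', hopp, ev_lt h.pos] with s h1 h2 h3 h4 h5
  have mem : ∀ z, dist o z = s → z ∈ ball o ρ := fun z hz => by
    rw [mem_ball, dist_comm, hz]
    exact h5.2
  have hC := h.cmp (τ s) (mem _ h1) (γ s) (mem _ h2) (γ' s) (mem _ h3) o (mem_ball_self h.pos)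
    (by rw [dist_comm (γ s) o, h2, h3, h4])
  rw [dist_comm (γ s) o, dist_comm (τ s) o, h1, h2, h3] at hC
  have h6 : 0 < sn κ s := (ad_of_sml h.sml (by linarith [h.pos])).sn_pos h5.1
  exact adj_of_cmp h6 h6 h6 hC

/-- adjacent angles at an interior point of a geodesic -/
theorem adj_geod (hloc : ∀ o : M, ∃ ρ, LC M κ o ρ) {γ σ : ℝ → M} {x y p : M} (hγ : IsGeod γ x y)
    {τ : ℝ} (h0 : 0 < τ) (h1 : τ < dist x y) (hσ : IsGeod σ (γ τ) p)
    (hp : 0 ≤ sn κ (dist (γ τ) p)) :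
    0 ≤ sn κ (dist (γ τ) p) * (hc κ σ (fun s => γ (τ - s)) + hc κ σ fun s => γ (τ + s)) := by
  rcases (dist_nonneg (x := γ τ) (y := p)).eq_or_lt with h2 | h2
  · rw [← h2, sn_at_zero, zero_mul]
  refine mul_nonneg hp ?_
  obtain ⟨ρ, hρ⟩ := hloc (γ τ)
  have e1 : ∀ᶠ s in 𝓝[>] (0 : ℝ), 0 < s ∧ s < τ := ev_lt h0
  have e2 : ∀ᶠ s in 𝓝[>] (0 : ℝ), 0 < s ∧ s < dist x y - τ := ev_lt (by linarith)
  refine hρ.adj (hσ.ray h2) ?_ ?_ ?_
  · filter_upwards [e1] with s hs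
    rw [hγ.2.2 τ ⟨h0.le, h1.le⟩ (τ - s) ⟨by linarith [hs.2], by linarith [hs.1]⟩,
      abs_of_nonneg (by linarith [hs.1])]
    ring
  · filter_upwards [e2] with s hs
    rw [hγ.2.2 τ ⟨h0.le, h1.le⟩ (τ + s) ⟨by linarith [hs.1], by linarith [hs.2]⟩,
      abs_of_nonpos (by linarith [hs.1])]
    ring
  · filter_upwards [e1, e2] with s hs hs'
    rw [hγ.2.2 (τ - s) ⟨by linarith [hs.2], by linarith [hs.1]⟩ (τ + s)
      ⟨by linarith [hs.1], by linarith [hs'.2]⟩, abs_of_nonpos (by linarith [hs.1])]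
    ring

/-! ### hinge comparison -/

/-- all hinges at `x` of total length `< ℓ` satisfy the comparison -/
def HG (κ : ℝ) (x : M) (ℓ : ℝ) : Prop :=
  ∀ (p q : M) (σ γ : ℝ → M), IsGeod σ x p → IsGeod γ x q → dist x p + dist x q < ℓ →
    md κ (dist p q) ≤ mS κ (dist x p) (dist x q) (hc κ σ γ)

theorem HG.mono {x : M} {ℓ ℓ' : ℝ} (h : HG κ x ℓ) (hℓ : ℓ' ≤ ℓ) : HG κ x ℓ' :=
  fun p q σ γ h1 h2 h3 => h p q σ γ h1 h2 (h3.trans_le hℓ)

/-- the local hinge comparison -/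
theorem LC.hg (h : LC M κ o ρ) {x : M} (hx : x ∈ ball o (ρ / 2)) : HG κ x (ρ / 2) := by
  intro p q σ γ hσ hγ hl
  rcases eq_or_ne x p with rfl | np
  · unfold mS
    simp
  rcases eq_or_ne x q with rfl | nq
  · unfold mS
    simp [dist_comm]
  have ha : 0 < dist x p := dist_pos.2 np
  have hb : 0 < dist x q := dist_pos.2 nq
  have mem : ∀ z, dist x z < ρ / 2 → z ∈ ball o ρ := fun z hz => by
    rw [mem_ball] at hx ⊢
    have := dist_triangle_left z o x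
    linarith
  have snp : ∀ t, 0 < t → t < ρ / 2 → 0 < sn κ t := fun t h1 h2 =>
    (ad_of_sml h.sml (by linarith [h.pos])).sn_pos h1
  have sa := snp _ ha (by linarith)
  have sb := snp _ hb (by linarith)
  rw [← le_cvA_iff sa sb]
  refine hc_le (hσ.ray ha) (hγ.ray hb) ?_
  filter_upwards [ev_lt ha, ev_lt hb] with s h1 h2
  have ss := snp s h1.1 (by linarith [h1.2])
  have d1 := hσ.dist_left h1.1.le h1.2.le
  have d2 := hσ.dist_right h1.1.le h1.2.le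
  have d3 := hγ.dist_left h2.1.le h2.2.le
  have d4 := hγ.dist_right h2.1.le h2.2.le
  have mx := mem x (by simpa using half_pos h.pos)
  have mp := mem p (by linarith)
  have mq := mem q (by linarith)
  have m1 := mem (σ s) (by linarith [h1.2])
  have m2 := mem (γ s) (by linarith [h2.2])
  have c1 := h.cmp (γ s) m2 x mx p mp (σ s) m1 (by rw [d1, d2]; ring)
  have c2 := h.cmp p mp x mx q mq (γ s) m2 (by rw [d3, d4]; ring)
  rw [dist_comm (γ s) x, d1, d2, d3] at c1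
  rw [d3, d4, dist_comm p x] at c2
  have e1 : s + (dist x p - s) = dist x p := by ring
  have e2 : s + (dist x q - s) = dist x q := by ring
  have k1 := mono_of_cmp ss (by rw [e1]; exact sa) ss c1
  have k2 := mono_of_cmp ss (by rw [e2]; exact sb) sa c2
  rw [e1, dist_comm (γ s) (σ s), cvA_comm κ (dist x p), dist_comm (γ s) p] at k1
  rw [e2, cvA_comm κ (dist x q)] at k2
  exact k1.trans k2

end Vale.Agent.P233Y
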