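import Vale.Agent.P233Y.DefsA
import Vale.Agent.P233.H992.Proper

/-!
# P233: length spaces, the theorem of Hopf and Rinow, geodesics
-/

open Vale.Agent.P233 Real Set Topology Metric Filter

universe u

namespace Vale.Agent.P233Y

variable {M : Type u} [MetricSpace M]

theorem isLen_of_isLengthSpace (h : IsLengthSpace M) : H992.IsLen M := by
  intro x y s t hs ht hst ε hε
  obtain ⟨γ, hc, h0, h1, hv⟩ := h x y ε hε
  obtain ⟨τ, hτ, hw⟩ := intermediate_value_Icc zero_le_one
    ((continuous_const.dist continuous_id).comp_continuousOn hc :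
      ContinuousOn (fun τ => dist x (γ τ)) (Icc 0 1))
    (show s ∈ Icc (dist x (γ 0)) (dist x (γ 1)) by
      rw [h0, h1, dist_self]
      exact ⟨hs, by linarith⟩)
  have h2 := eVariationOn.Icc_add_Icc γ (s := univ) hτ.1 hτ.2 (mem_univ _)
  simp only [univ_inter] at h2
  have h3 := (add_le_add (eVariationOn.edist_le γ (left_mem_Icc.2 hτ.1) (right_mem_Icc.2 hτ.1))
    (eVariationOn.edist_le γ (left_mem_Icc.2 hτ.2) (right_mem_Icc.2 hτ.2))).trans (h2.le.trans hv)
  rw [h0, h1, edist_dist, edist_dist, ← ENNReal.ofReal_add dist_nonneg dist_nonneg,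
    ENNReal.ofReal_le_ofReal_iff (by positivity)] at h3
  have h4 : dist x (γ τ) = s := hw
  exact ⟨γ τ, by linarith, by linarith⟩

/-- A point of the ball of radius `R + a` is close to the ball of radius `R`. -/
theorem exists_near (h : H992.IsLen M) {x z : M} {R a ε : ℝ} (hR : 0 < R) (ha : 0 ≤ a)
    (hε : 0 < ε) (hz : z ∈ ball x (R + a)) : ∃ w ∈ ball x R, dist z w < a + ε := by
  rw [mem_ball, dist_comm] at hz
  have h1 : dist x z - min a (dist x z) < R := by
    rcases le_total a (dist x z) with h1 | h1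
    · rw [min_eq_left h1]; linarith
    · rw [min_eq_right h1]; linarith
  obtain ⟨w, h2, h3⟩ := h x z (dist x z - min a (dist x z)) (min a (dist x z))
    (sub_nonneg.2 (min_le_right _ _)) (le_min ha dist_nonneg) (by ring)
    (min ε (R - (dist x z - min a (dist x z))) / 2) (half_pos (lt_min hε (sub_pos.2 h1)))
  have h4 := min_le_left ε (R - (dist x z - min a (dist x z)))
  have h5 := min_le_right ε (R - (dist x z - min a (dist x z)))
  have h6 := min_le_left a (dist x z)
  refine ⟨w, ?_, ?_⟩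
  · rw [mem_ball, dist_comm]; linarith
  · rw [dist_comm]; linarith

theorem properSpace_of_locTB [CompleteSpace M] (h : H992.IsLen M)
    (hT : ∀ o : M, ∃ r > 0, TotallyBounded (ball o r)) : ProperSpace M := by
  suffices key : ∀ (x : M) (r : ℝ), TotallyBounded (ball x r) from
    ⟨fun x r => ((key x (r + 1)).subset
      (closedBall_subset_ball (by linarith))).isCompact_of_isClosed isClosed_closedBall⟩
  intro x r₀
  by_contra h0
  choose ρ hρ hρT using hT
  have hb : BddAbove {r | TotallyBounded (ball x r)} := ⟨r₀, fun r hr =>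
    le_of_not_ge fun h1 => h0 (TotallyBounded.subset (ball_subset_ball h1) hr)⟩
  have hne : {r | TotallyBounded (ball x r)}.Nonempty := ⟨_, hρT x⟩
  have hR : 0 < sSup {r | TotallyBounded (ball x r)} := (hρ x).trans_le (le_csSup hb (hρT x))
  have hle : ∀ r, TotallyBounded (ball x r) → r ≤ sSup {r | TotallyBounded (ball x r)} :=
    fun r hr => le_csSup hb hr
  have hlt : ∀ c < sSup {r | TotallyBounded (ball x r)}, ∃ r, TotallyBounded (ball x r) ∧ c < r :=
    fun c hc => exists_lt_of_lt_csSup hne hc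
  generalize sSup {r | TotallyBounded (ball x r)} = R at hR hle hlt
  have cov : ∀ (r a δ : ℝ), 0 < r → 0 ≤ a → a < δ → TotallyBounded (ball x r) →
      ∃ t ⊆ ball x r, t.Finite ∧ ball x (r + a) ⊆ ⋃ y ∈ t, ball y δ := by
    intro r a δ hr ha hδ hT
    obtain ⟨t, h1, h2, h3⟩ := finite_approx_of_totallyBounded hT ((δ - a) / 2) (by linarith)
    refine ⟨t, h1, h2, fun z hz => ?_⟩
    obtain ⟨w, hw, h4⟩ := exists_near h hr ha (show 0 < (δ - a) / 2 by linarith) hz
    obtain ⟨y, hy, h5⟩ := mem_iUnion₂.1 (h3 hw)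
    refine mem_iUnion₂.2 ⟨y, hy, ?_⟩
    rw [mem_ball] at h5 ⊢
    linarith [dist_triangle z w y]
  have h1 : TotallyBounded (ball x R) := by
    refine Metric.totallyBounded_iff.2 fun ε hε => ?_
    obtain ⟨r, h2, h3⟩ := hlt (max (R - ε / 2) 0) (max_lt (by linarith) hR)
    obtain ⟨t, -, h4, h5⟩ := cov r (ε / 2) ε ((le_max_right _ _).trans_lt h3) (by linarith)
      (by linarith) h2
    exact ⟨t, h4, (ball_subset_ball (by linarith [le_max_left (R - ε / 2) 0])).trans h5⟩
  obtain ⟨δ, hδ, h2⟩ := lebesgue_number_lemma_of_metric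
    (h1.closure.isCompact_of_isClosed isClosed_closure) (c := fun y => ball y (ρ y))
    (fun _ => isOpen_ball) fun y _ => mem_iUnion.2 ⟨y, mem_ball_self (hρ y)⟩
  obtain ⟨t, h3, h4, h5⟩ := cov R (δ / 2) δ hR (by linarith) (by linarith) h1
  have h6 := hle _ (TotallyBounded.subset h5 ((totallyBounded_biUnion h4).2 fun y hy => by
    obtain ⟨i, hi⟩ := h2 y (subset_closure (h3 hy))
    exact (hρT i).subset hi))
  linarith

/-- Chains with equal steps. -/
theorem exists_chain [ProperSpace M] (h : H992.IsLen M) {a : ℝ} (ha : 0 ≤ a) (N : ℕ) :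
    ∀ x y : M, dist x y = N * a → ∃ z : ℕ → M, z 0 = x ∧ z N = y ∧
      ∀ i j, i ≤ j → j ≤ N → dist (z i) (z j) ≤ (j - i) * a := by
  have key : ∀ x y : M, dist x y = N * a → ∃ z : ℕ → M, z 0 = x ∧ z N = y ∧
      ∀ i < N, dist (z i) (z (i + 1)) ≤ a := by
    induction N with
    | zero => exact fun x y hd => ⟨fun _ => x, rfl, dist_eq_zero.1 (by simpa using hd), by simp⟩
    | succ N ih =>
      intro x y hd
      obtain ⟨w, h1, h2⟩ := h.geodesic x y a (N * a) ha (by positivity) (by rw [hd]; push_cast; ring)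
      obtain ⟨z, h3, h4, h5⟩ := ih w y h2
      refine ⟨fun i => Nat.casesOn i x z, rfl, h4, fun i hi => ?_⟩
      cases i with
      | zero => exact (show dist x (z 0) = a by rw [h3, h1]).le
      | succ i => exact h5 i (by omega)
  intro x y hd
  obtain ⟨z, h1, h2, h3⟩ := key x y hd
  refine ⟨z, h1, h2, fun i j hij hj => ?_⟩
  induction j, hij using Nat.le_induction with
  | base => simp
  | succ j hij ih =>
    have h4 := dist_triangle (z i) (z j) (z (j + 1))
    have h5 := ih (by omega)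
    have h6 := h3 j (by omega)
    push_cast
    linarith

theorem geodOn_univ [ProperSpace M] (h : H992.IsLen M) : GeodOn (univ : Set M) := by
  intro x _ y _
  rcases (dist_nonneg (x := x) (y := y)).eq_or_lt with hd | hd
  · refine ⟨fun _ => x, rfl, dist_eq_zero.1 hd.symm, fun s hs t ht => ?_⟩
    rw [← hd] at hs ht
    rw [le_antisymm hs.2 hs.1, le_antisymm ht.2 ht.1]
    simp
  have ha : ∀ N : ℕ, 0 < dist x y / (N + 1) := fun N => by positivity
  choose z h0 h1 h2 using fun N : ℕ => exists_chain h (ha N).le (N + 1) x y (by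
    push_cast
    field_simp)
  have hf : ∀ (N : ℕ) (s : ℝ), s ≤ dist x y → ⌊s / (dist x y / (N + 1))⌋₊ ≤ N + 1 := fun N s hs =>
    Nat.floor_le_of_le (by
      rw [div_le_iff₀ (ha N)]
      push_cast
      rwa [mul_div_cancel₀ _ (by positivity)])
  have hg : ∀ (N : ℕ) (s t : ℝ), 0 ≤ s → s ≤ t → t ≤ dist x y →
      dist (z N ⌊s / (dist x y / (N + 1))⌋₊) (z N ⌊t / (dist x y / (N + 1))⌋₊) ≤
        t - s + dist x y / (N + 1) := by
    intro N s t hs hst ht
    refine (h2 N _ _ (Nat.floor_le_floor (by gcongr)) (hf N t ht)).trans ?_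
    have h3 := Nat.floor_le (div_nonneg (hs.trans hst) (ha N).le)
    have h4 := (Nat.lt_floor_add_one (s / (dist x y / (N + 1)))).le
    rw [le_div_iff₀ (ha N)] at h3
    rw [div_le_iff₀ (ha N)] at h4
    linarith
  have hlim : ∀ s : ℝ, ∃ p, s ≤ dist x y →
      Tendsto (fun N : ℕ => z N ⌊s / (dist x y / (N + 1))⌋₊) (hyperfilter ℕ) (𝓝 p) := by
    intro s
    by_cases hs : s ≤ dist x y
    · obtain ⟨p, -, hp⟩ := (isCompact_closedBall x (dist x y)).ultrafilter_le_nhds
        ((hyperfilter ℕ).map fun N : ℕ => z N ⌊s / (dist x y / (N + 1))⌋₊)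
        (le_principal_iff.2 (mem_map.2 (Eventually.of_forall fun N => by
          have h3 := h2 N 0 _ (Nat.zero_le _) (hf N s hs)
          have h4 : (⌊s / (dist x y / (N + 1))⌋₊ : ℝ) ≤ N + 1 := by exact_mod_cast hf N s hs
          have h5 := mul_le_mul_of_nonneg_right h4 (ha N).le
          rw [mul_div_cancel₀ _ (by positivity)] at h5
          rw [h0, Nat.cast_zero, sub_zero] at h3
          exact mem_closedBall'.2 (h3.trans h5))))
      exact ⟨p, fun _ => hp⟩
    · exact ⟨x, fun h => absurd h hs⟩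
  choose γ hγ using hlim
  have e0 : γ 0 = x := tendsto_nhds_unique (hγ 0 hd.le) (by simp [h0])
  have e1 : γ (dist x y) = y := tendsto_nhds_unique (hγ _ le_rfl) (by
    refine tendsto_const_nhds.congr fun N => ?_
    rw [div_div_cancel₀ hd.ne', ← Nat.cast_succ, Nat.floor_natCast, h1])
  have hz : Tendsto (fun N : ℕ => dist x y / ((N : ℝ) + 1)) (hyperfilter ℕ) (𝓝 0) :=
    (tendsto_const_nhds.div_atTop
      (tendsto_atTop_add_const_right _ _ tendsto_natCast_atTop_atTop)).mono_left
      Nat.hyperfilter_le_atTop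
  have hl : ∀ s t : ℝ, 0 ≤ s → s ≤ t → t ≤ dist x y → dist (γ s) (γ t) ≤ t - s :=
    fun s t hs hst ht => by
      simpa using le_of_tendsto_of_tendsto' ((hγ s (hst.trans ht)).dist (hγ t ht))
        (hz.const_add (t - s)) fun N => hg N s t hs hst ht
  have he : ∀ s t : ℝ, 0 ≤ s → s ≤ t → t ≤ dist x y → dist (γ s) (γ t) = t - s :=
    fun s t hs hst ht => by
      have h3 := hl 0 s le_rfl hs (hst.trans ht)
      have h4 := hl t _ (hs.trans hst) ht le_rfl
      have h5 := dist_triangle4 x (γ s) (γ t) y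
      rw [e0] at h3
      rw [e1] at h4
      linarith [hl s t hs hst ht]
  refine ⟨γ, e0, e1, fun s hs t ht => ?_⟩
  rcases le_total s t with hst | hst
  · rw [he s t hs.1 hst ht.2, abs_sub_comm, abs_of_nonneg (sub_nonneg.2 hst)]
  · rw [dist_comm, he t s ht.1 hst hs.2, abs_of_nonneg (sub_nonneg.2 hst)]

theorem isLengthSpace_of_geodOn (h : GeodOn (univ : Set M)) : IsLengthSpace M := by
  intro x y ε hε
  obtain ⟨γ, h0, h1, h2⟩ := h x trivial y trivial
  have h3 : LipschitzOnWith 1 γ (Icc 0 (dist x y)) :=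
    LipschitzOnWith.of_dist_le_mul fun s hs t ht => by
      rw [h2 s hs t ht, NNReal.coe_one, one_mul, Real.dist_eq]
  have h4 : MapsTo (fun t : ℝ => t * dist x y) (Icc 0 1) (Icc 0 (dist x y)) := fun t ht =>
    ⟨mul_nonneg ht.1 dist_nonneg, mul_le_of_le_one_left dist_nonneg ht.2⟩
  have h5 := MonotoneOn.eVariationOn_eq (f := fun t : ℝ => t * dist x y) (s := univ)
    (fun _ _ _ _ h => mul_le_mul_of_nonneg_right h dist_nonneg) (mem_univ 0) (mem_univ 1)
  rw [univ_inter] at h5
  refine ⟨γ ∘ fun t => t * dist x y, h3.continuousOn.comp (by fun_prop) h4, by simp [h0],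
    by simp [h1], (h3.comp_eVariationOn_le h4).trans ?_⟩
  rw [ENNReal.coe_one, one_mul]
  exact h5.le.trans (ENNReal.ofReal_le_ofReal (by linarith))

theorem properSpace_of_locallyCompact [CompleteSpace M] [LocallyCompactSpace M]
    (h : H992.IsLen M) : ProperSpace M :=
  properSpace_of_locTB h fun o => by
    obtain ⟨K, hK, ho⟩ := exists_compact_mem_nhds o
    obtain ⟨r, hr, h1⟩ := Metric.mem_nhds_iff.1 ho
    exact ⟨r, hr, hK.totallyBounded.subset h1⟩

end Vale.Agent.P233Y
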