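import Vale.Agent.P233Y.A1

/-!
# P233Z: no branching, so total boundedness spreads
-/

universe u

namespace Vale.Agent.P233Y

open Vale.Agent.P233 Vale.Agent.P233.AB Vale.Agent.P233.H616 Vale.Agent.P233.Str Real Set Topology
  Metric Filter

variable {M : Type u} [MetricSpace M] {κ ρ : ℝ} {o : M}

theorem LQ.tb_spread (h : LQ M κ o ρ) {p : M} (hp : p ∈ ball o (ρ / 4)) {s : ℝ} (hs : 0 < s)
    (hT : TotallyBounded (ball p s)) : TotallyBounded (ball p (ρ / 2)) := by
  refine totallyBounded_iff_ultrafilter.2 fun f hf => ?_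
  have hρ := h.pos
  have hf' : ∀ᶠ x in (f : Filter M), dist p x < ρ / 2 :=
    Eventually.mono (le_principal_iff.1 hf) fun x hx => mem_ball'.1 hx
  obtain ⟨a, ha, hfa⟩ := (isCompact_Icc (a := 0) (b := ρ / 2)).ultrafilter_le_nhds (f.map (dist p))
    (le_principal_iff.2 (hf'.mono fun x hx => ⟨dist_nonneg, hx.le⟩))
  replace hfa : Tendsto (dist p) f (𝓝 a) := hfa
  rcases ha.1.eq_or_lt with rfl | a0
  · exact cauchy_nhds.mono (tendsto_id'.1 (tendsto_iff_dist_tendsto_zero.2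
      (hfa.congr fun x => dist_comm p x)))
  obtain ⟨t, t0, ta, ts⟩ : ∃ t, 0 < t ∧ t < a ∧ t < s := by
    obtain ⟨t, h1, h2⟩ := exists_between (lt_min a0 hs)
    exact ⟨t, h1, (lt_min_iff.1 h2).1, (lt_min_iff.1 h2).2⟩
  have hex : ∀ q : M × ℕ, ∃ w, t ≤ dist p q.1 → dist p w ≤ t + 1 / ((q.2 : ℝ) + 1) ∧
      dist w q.1 ≤ dist p q.1 - t + 1 / ((q.2 : ℝ) + 1) := fun q => by
    by_cases hq : t ≤ dist p q.1
    · obtain ⟨w, hw⟩ := h.len p q.1 t (dist p q.1 - t) t0.le (by linarith) (by ring) _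
        (Nat.one_div_pos_of_nat (n := q.2))
      exact ⟨w, fun _ => hw⟩
    · exact ⟨p, fun h' => (hq h').elim⟩
  choose y hy using hex
  let g : Ultrafilter (M × ℕ) := Ultrafilter.of (f ×ˢ atTop)
  have g1 : Tendsto Prod.fst (g : Filter (M × ℕ)) f := tendsto_fst.mono_left (Ultrafilter.of_le _)
  have g2 : Tendsto Prod.snd (g : Filter (M × ℕ)) atTop :=
    tendsto_snd.mono_left (Ultrafilter.of_le _)
  have e0 : Tendsto (fun q : M × ℕ => 1 / ((q.2 : ℝ) + 1)) g (𝓝 0) :=
    tendsto_one_div_add_atTop_nhds_zero_nat.comp g2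
  have d0 : Tendsto (fun q : M × ℕ => dist p q.1) g (𝓝 a) := hfa.comp g1
  have hy' := (d0.eventually_const_le ta).mono hy
  have d1 : Tendsto (fun q => dist p (y q)) g (𝓝 t) := by
    refine tendsto_of_tendsto_of_tendsto_of_le_of_le' (by simpa using e0.const_sub t)
      (by simpa using e0.const_add t) (hy'.mono fun q hq => ?_) (hy'.mono fun q hq => ?_)
    · have := dist_triangle p (y q) q.1
      rw [← one_div]
      linarith [hq.2]
    · simpa using hq.1
  have d2 : Tendsto (fun q => dist (y q) q.1) g (𝓝 (a - t)) := by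
    refine tendsto_of_tendsto_of_tendsto_of_le_of_le' (d0.sub d1)
      (by simpa using (d0.sub_const t).add e0) (.of_forall fun q => ?_) (hy'.mono fun q hq => ?_)
    · linarith [dist_triangle p (y q) q.1]
    · simpa using hq.2
  have cy : Cauchy (map y (g : Filter (M × ℕ))) := (g.map y).cauchy_of_totallyBounded hT
    (le_principal_iff.2 ((d1.eventually_lt_const ts).mono fun q hq => mem_ball'.2 hq))
  refine Metric.cauchy_iff.2 ⟨f.neBot, fun ε hε => by_contra fun hn => ?_⟩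
  have : NeBot (((g : Filter (M × ℕ)) ×ˢ (g : Filter (M × ℕ))) ⊓ 𝓟 {r | ε ≤ dist r.1.1 r.2.1}) := by
    refine inf_principal_neBot_iff.2 fun U hU => ?_
    obtain ⟨A, hA, hAU⟩ := mem_prod_self_iff.1 hU
    refine by_contra fun hc => hn ⟨Prod.fst '' A, ?_, ?_⟩
    · rw [← f.unique g1]
      exact image_mem_map hA
    · rintro _ ⟨q, hq, rfl⟩ _ ⟨q', hq', rfl⟩
      exact not_le.1 fun h' => hc ⟨(q, q'), hAU ⟨hq, hq'⟩, h'⟩
  let U := Ultrafilter.of
    (((g : Filter (M × ℕ)) ×ˢ (g : Filter (M × ℕ))) ⊓ 𝓟 {r | ε ≤ dist r.1.1 r.2.1})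
  have u0 : (U : Filter ((M × ℕ) × M × ℕ)) ≤ (g : Filter (M × ℕ)) ×ˢ (g : Filter (M × ℕ)) :=
    (Ultrafilter.of_le _).trans inf_le_left
  have u1 : Tendsto Prod.fst (U : Filter ((M × ℕ) × M × ℕ)) g := tendsto_fst.mono_left u0
  have u2 : Tendsto Prod.snd (U : Filter ((M × ℕ) × M × ℕ)) g := tendsto_snd.mono_left u0
  have u3 : ∀ᶠ r in (U : Filter ((M × ℕ) × M × ℕ)), ε ≤ dist r.1.1 r.2.1 :=
    le_principal_iff.1 ((Ultrafilter.of_le _).trans inf_le_right)
  have b1 := (g1.comp u1).eventually hf'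
  have b2 := (g1.comp u2).eventually hf'
  obtain ⟨c, hc, d3⟩ := (isCompact_Icc (a := ε) (b := ρ)).ultrafilter_le_nhds
    (U.map fun r => dist r.1.1 r.2.1) (le_principal_iff.2 (mem_map.2 (by
      filter_upwards [u3, b1, b2] with r a1 a2 a3
      exact ⟨a1, (dist_triangle_left _ _ p).trans
        (by simp only [Function.comp] at a2 a3; linarith)⟩)))
  replace d3 : Tendsto (fun r : (M × ℕ) × M × ℕ => dist r.1.1 r.2.1) U (𝓝 c) := d3
  have d4 : Tendsto (fun r : (M × ℕ) × M × ℕ => dist (y r.2) (y r.1)) U (𝓝 0) :=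
    tendsto_uniformity_iff_dist_tendsto_zero.1
      (((tendsto_map.comp u2).prodMk (tendsto_map.comp u1)).mono_right cy.2)
  have d5 : Tendsto (fun r : (M × ℕ) × M × ℕ => dist (y r.1) r.2.1) U (𝓝 (a - t)) :=
    (d2.comp u2).congr_dist (squeeze_zero (fun _ => dist_nonneg)
      (fun r => dist_dist_dist_le_left _ _ _) d4)
  have d6 : Tendsto (fun r : (M × ℕ) × M × ℕ => dist (y r.1) p) U (𝓝 t) :=
    (d1.comp u1).congr fun r => dist_comm _ _
  have s1 : 0 < sn κ t := (ad_of_sml h.sml (by linarith [ha.2])).sn_pos t0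
  have s2 : 0 < sn κ (a - t) := (ad_of_sml h.sml (by linarith [ha.2])).sn_pos (by linarith)
  have e1 : cvA κ t (a - t) a = -1 := by simpa using cvA_add s1 s2
  have l1 := tendsto_cvA3 s1 s2 d6 (d2.comp u1) (d0.comp u1)
  have l2 := tendsto_cvA3 s2 s2 (d2.comp u1) d5 d3
  have l3 := tendsto_cvA3 s1 s2 d6 d5 (d0.comp u2)
  have l4 := le_of_tendsto ((((continuous_arccos.tendsto _).comp l1).add
    ((continuous_arccos.tendsto _).comp l2)).add ((continuous_arccos.tendsto _).comp l3))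
    (b := 2 * π) (by
      have hb : ∀ x, dist p x < ρ / 2 → x ∈ ball o ρ := fun x hx => by
        have := dist_triangle_left x o p
        rw [mem_ball] at hp ⊢
        linarith
      filter_upwards [b1, b2, (d1.comp u1).eventually_lt_const (ta.trans_le ha.2),
        d6.eventually_const_lt t0, (d2.comp u1).eventually_const_lt (sub_pos.2 ta),
        d5.eventually_const_lt (sub_pos.2 ta)] with r a1 a2 a3 a4 a5 a6
      exact h.sum _ (hb _ a3) p (hb p (by simpa using hρ)) _ (hb _ a1) _ (hb _ a2)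
        (dist_pos.1 a4) (dist_pos.1 a5) (dist_pos.1 a6))
  have l5 : 0 < arccos (cvA κ (a - t) (a - t) c) := arccos_pos.2 (cvA_lt_one s2 s2
    (by simpa using hε.trans_le hc.1) (le_of_lt (ad_of_sml h.sml (by linarith [hc.2]))))
  rw [e1, arccos_neg_one] at l4
  linarith

theorem tb_of_chart {k : ℕ} {f : M → Fin k → ℝ} (hf : LipschitzWith 1 f) {p : M} {r L : ℝ}
    (hL : 0 < L) (h : ∀ x ∈ ball p r, ∀ y ∈ ball p r, dist x y ≤ L * dist (f x) (f y)) :
    TotallyBounded (ball p r) := by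
  refine totallyBounded_iff_ultrafilter.2 fun U hU => ?_
  have h1 : Cauchy (map f (U : Filter M)) := (U.map f).cauchy_of_totallyBounded
    (hf.isBounded_image isBounded_ball).isCompact_closure.totallyBounded
    (le_principal_iff.2 (mem_of_superset (image_mem_map (le_principal_iff.1 hU)) subset_closure))
  refine Metric.cauchy_iff.2 ⟨U.neBot, fun ε hε => ?_⟩
  obtain ⟨A, hA, h2⟩ := (Metric.cauchy_iff.1 h1).2 (ε / L) (div_pos hε hL)
  refine ⟨f ⁻¹' A ∩ ball p r, inter_mem hA (le_principal_iff.1 hU), fun x hx y hy => ?_⟩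
  exact (h x hx.2 y hy.2).trans_lt ((lt_div_iff₀' hL).1 (h2 _ hx.1 _ hy.1))

end Vale.Agent.P233Y
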