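import Vale.Agent.P233Y.AOpen
import Vale.Agent.P233Y.AChart
import Vale.Agent.P233Y.ASpread
import Vale.Agent.P233Y.ALen
import Vale.Agent.P233Y.ATriQuad
import Vale.Agent.P233Y.AGlob

/-!
# P233Y: finite dimensional length spaces with local curvature bounds are proper and geodesic
-/

open Real Set Topology Filter Metric MeasureTheory
open scoped ENNReal NNReal

universe u

namespace Vale.Agent.P233Y

open Vale.Agent.P233 Vale.Agent.P233.AB Vale.Agent.P233.Str

variable {M : Type u} [MetricSpace M] {κ ρ : ℝ} {o : M}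

theorem exists_small (k : ℕ) {η : ℝ} (hη : 0 < η) :
    ∃ δ > 0, δ ≤ η ∧ 2 * √(2 * δ) < η ∧ k * (δ + √(2 * δ)) < 1 / 2 := by
  have h1 : Tendsto (fun δ : ℝ => 2 * √(2 * δ)) (𝓝 0) (𝓝 (2 * √(2 * 0))) :=
    (Continuous.tendsto (by fun_prop) 0)
  have h2 : Tendsto (fun δ : ℝ => k * (δ + √(2 * δ))) (𝓝 0) (𝓝 (k * (0 + √(2 * 0)))) :=
    (Continuous.tendsto (by fun_prop) 0)
  simp only [mul_zero, Real.sqrt_zero, add_zero] at h1 h2
  have h3 : ∀ᶠ δ in 𝓝[>] (0 : ℝ), 0 < δ ∧ δ ≤ η ∧ 2 * √(2 * δ) < η ∧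
      k * (δ + √(2 * δ)) < 1 / 2 := by
    filter_upwards [self_mem_nhdsWithin,
      eventually_nhdsWithin_of_eventually_nhds (h1.eventually (gt_mem_nhds hη)),
      eventually_nhdsWithin_of_eventually_nhds
        (h2.eventually (gt_mem_nhds (by norm_num : (0:ℝ) < 1 / 2))),
      eventually_nhdsWithin_of_eventually_nhds (ge_mem_nhds hη)] with δ g1 g2 g3 g4
    exact ⟨g1, g4, g2, g3⟩
  obtain ⟨δ, g1, g2, g3, g4⟩ := h3.exists
  exact ⟨δ, g1, g2, g3, g4⟩

/-- local compactness -/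
theorem LQ.totallyBounded [CompleteSpace M] (h : LQ M κ o ρ) (hfin : dimH (univ : Set M) < ⊤) :
    TotallyBounded (ball o (ρ / 4)) := by
  borelize M
  have hρ := h.pos
  let P : ℕ → Prop := fun k => ∀ δ > 0, ∃ (a b : Fin k → M) (p : M), p ∈ ball o (ρ / 4) ∧
    IsStr κ (ρ / 4) δ a b p
  have hP0 : P 0 := fun δ _ => ⟨fun i => i.elim0, fun i => i.elim0, o, mem_ball_self (by linarith),
    ⟨fun i => i.elim0, fun i => i.elim0, fun i => i.elim0, fun i => i.elim0, fun i => i.elim0,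
      fun i => i.elim0, fun i => i.elim0, fun i => i.elim0⟩⟩
  have hbound : ∀ k : ℕ, P k → (k : ℝ≥0∞) ≤ dimH (univ : Set M) := by
    intro k hk
    obtain ⟨δ, hδ, -, -, hkδ⟩ := exists_small k one_pos
    obtain ⟨a, b, p, hp, hS⟩ := hk δ hδ
    obtain ⟨c, hc, hsub⟩ := h.open_stm hp hS hδ.le hkδ 1 one_pos
    have h1 := haus_pos (lipschitz_stm a) hc hsub
    have h2 : ((k : ℝ≥0) : ℝ≥0∞) ≤ dimH (ball p 1) :=
      le_dimH_of_hausdorffMeasure_ne_zero (d := (k : ℝ≥0)) (by
        rw [NNReal.coe_natCast]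
        exact h1.ne')
    rw [ENNReal.coe_natCast] at h2
    exact h2.trans (dimH_mono (subset_univ _))
  obtain ⟨k, hk, hk'⟩ : ∃ k, P k ∧ ¬ P (k + 1) := by
    by_contra hcon
    push Not at hcon
    have hall : ∀ k, P k := fun k => by
      induction k with
      | zero => exact hP0
      | succ k ih => exact hcon k ih
    obtain ⟨N, hN⟩ := ENNReal.exists_nat_gt hfin.ne
    exact absurd (hbound N (hall N)) (not_le.2 hN)
  simp only [P] at hk'
  push Not at hk'
  obtain ⟨δ', hδ', hmax⟩ := hk'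
  obtain ⟨δ, hδ, hδδ', hδ2, -⟩ := exists_small k hδ'
  obtain ⟨a, b, p, hp, hS⟩ := hk δ hδ
  obtain ⟨r, hr, L, hL, hch⟩ := h.chart hp hS hδ.le hδδ' hδ2 hmax
  refine (h.tb_spread hp hr (tb_of_chart (lipschitz_stm a) hL hch)).subset fun x hx => ?_
  have := dist_lt_of_mem_ball hx hp
  rw [mem_ball]
  linarith

theorem properSpace_of_LQ [CompleteSpace M] (hl : H992.IsLen M) (h : ∀ o : M, ∃ ρ, LQ M κ o ρ)
    (hfin : dimH (univ : Set M) < ⊤) : ProperSpace M :=
  properSpace_of_locTB hl fun o =>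
    let ⟨ρ, hρ⟩ := h o
    ⟨ρ / 4, by linarith [hρ.pos], hρ.totallyBounded hfin⟩

/-- A complete finite dimensional length space with the local `(1+3)`-point comparison is a geodesic
space with the comparison for all triangles. -/
theorem isAlexandrov_of_LQ [CompleteSpace M] (hl : H992.IsLen M) (h : ∀ o : M, ∃ ρ, LQ M κ o ρ)
    (hfin : dimH (univ : Set M) < ⊤) : T.IsAlexandrov M κ := by
  have := properSpace_of_LQ hl h hfin
  exact isAlexandrov_of_loc hl.geodesic fun o =>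
    let ⟨ρ, hρ⟩ := h o
    ⟨ρ, hρ.toLC hl.geodesic⟩

theorem LC.exists_LQ (hl : H992.IsLen M) (h : LC M κ o ρ) : ∃ ρ', LQ M κ o ρ' :=
  P233Y.exists_LQ hl (ball_mem_nhds o (by linarith [h.pos])) h.quadOn

/-- The same with the local triangle comparison. -/
theorem isAlexandrov_of_LC [CompleteSpace M] (hl : H992.IsLen M) (h : ∀ o : M, ∃ ρ, LC M κ o ρ)
    (hfin : dimH (univ : Set M) < ⊤) : T.IsAlexandrov M κ :=
  isAlexandrov_of_LQ hl (fun o => let ⟨_, hρ⟩ := h o; hρ.exists_LQ hl) hfin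

/-- concatenation of geodesics -/
theorem IsGeod.concat {α β : ℝ → M} {x w y : M} (hα : IsGeod α x w) (hβ : IsGeod β w y)
    (hw : dist x w + dist w y = dist x y) :
    ∃ γ : ℝ → M, IsGeod γ x y ∧ γ (dist x w) = w := by
  have n1 : 0 ≤ dist x w := dist_nonneg
  have n2 : 0 ≤ dist w y := dist_nonneg
  have mixed : ∀ s t, 0 ≤ s → s ≤ dist x w → dist x w ≤ t → t ≤ dist x y →
      dist (α s) (β (t - dist x w)) = t - s := by
    intro s t h1 h2 h3 h4
    have a1 := hα.dist_left h1 h2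
    have a2 := hα.dist_right h1 h2
    have b1 := hβ.dist_left (s := t - dist x w) (by linarith) (by linarith)
    have b2 := hβ.dist_right (s := t - dist x w) (by linarith) (by linarith)
    have t1 := dist_triangle (α s) w (β (t - dist x w))
    have t2 := dist_triangle4 x (α s) (β (t - dist x w)) y
    linarith
  refine ⟨fun s => if s ≤ dist x w then α s else β (s - dist x w), ⟨?_, ?_, ?_⟩, ?_⟩
  · simp only [n1, if_true]
    exact hα.1
  · by_cases h : dist x y ≤ dist x w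
    · simp only [h, if_true]
      have h0 : dist w y = 0 := by linarith
      have h1 : dist x y = dist x w := by linarith
      rw [h1, hα.2.1]
      exact dist_eq_zero.1 h0
    · simp only [h, if_false]
      rw [show dist x y - dist x w = dist w y by linarith]
      exact hβ.2.1
  · intro s hs t ht
    by_cases h1 : s ≤ dist x w <;> by_cases h2 : t ≤ dist x w <;> simp only [h1, h2, if_true, if_false]
    · exact hα.2.2 s ⟨hs.1, h1⟩ t ⟨ht.1, h2⟩
    · rw [mixed s t hs.1 h1 (not_le.1 h2).le ht.2, abs_of_nonpos (by linarith [not_le.1 h2])]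
      ring
    · rw [dist_comm, mixed t s ht.1 h2 (not_le.1 h1).le hs.2,
        abs_of_nonneg (by linarith [not_le.1 h1])]
    · rw [hβ.2.2 _ ⟨by linarith [not_le.1 h1], by linarith [hs.2]⟩ _
        ⟨by linarith [not_le.1 h2], by linarith [ht.2]⟩]
      congr 1
      ring
  · simp only [le_refl, if_true]
    exact hα.2.1

/-- in a geodesic space, comparison for geodesic triangles is comparison for intermediate points -/
theorem cmp_of_triOn {U : Set M} (hg : GeodOn U) (ht : TriOn κ U) {p x y w : M} (hp : p ∈ U)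
    (hx : x ∈ U) (hy : y ∈ U) (hwU : w ∈ U) (hw : dist x w + dist w y = dist x y)
    (hs : Small κ p x y) : T.Cmp κ (dist p x) (dist p y) (dist x w) (dist w y) (dist p w) := by
  obtain ⟨α, hα⟩ := hg p hp x hx
  obtain ⟨β, hβ⟩ := hg p hp y hy
  obtain ⟨γ₁, h₁⟩ := hg x hx w hwU
  obtain ⟨γ₂, h₂⟩ := hg w hwU y hy
  obtain ⟨γ, hγ, hγw⟩ := h₁.concat h₂ hw
  have := ht p hp x hx y hy α β γ hα hβ hγ hs (dist x w)
    ⟨dist_nonneg, by linarith [dist_nonneg (x := w) (y := y)]⟩
  rwa [hγw, show dist x y - dist x w = dist w y by linarith] at this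

theorem IsGeod.exists_between {γ : ℝ → M} {x y : M} (h : IsGeod γ x y) {s t : ℝ} (hs : 0 ≤ s)
    (ht : 0 ≤ t) (hst : s + t = dist x y) : ∃ w, dist x w = s ∧ dist w y = t :=
  ⟨γ s, h.dist_left hs (by linarith), by rw [h.dist_right hs (by linarith)]; linarith⟩

theorem exists_LC {U : Set M} (hU : U ∈ 𝓝 o) (hg : GeodOn U) (ht : TriOn κ U) :
    ∃ ρ, LC M κ o ρ := by
  obtain ⟨ρ, hρ, hs, hsub⟩ := exists_ball_sml κ hU
  refine ⟨ρ, hρ, hs, fun x hx y hy s t h1 h2 h3 => ?_, fun p hp x hx y hy w hw h => ?_⟩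
  · obtain ⟨γ, hγ⟩ := hg x (hsub hx) y (hsub hy)
    exact hγ.exists_between h1 h2 h3
  · exact cmp_of_triOn hg ht (hsub hp) (hsub hx) (hsub hy) (hsub hw) h
      (small_of_mem_ball hs hp hx hy)

end Vale.Agent.P233Y
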